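import Mathlib.Order.BooleanAlgebra.Basic
import Mathlib.Order.Zorn
import Mathlib.Tactic

/-!
Coherent partial Boolean algebras: an abstract calculus of (not necessarily commuting) events.
-/

namespace Vale.Agent.P196.E3

/-- A coherent partial Boolean algebra satisfying the exclusivity principle. -/
class CPBA (B : Type*) where
  compat : B → B → Prop
  one : B
  compl : B → B
  inf : B → B → B
  compat_refl : ∀ a, compat a a
  compat_symm : ∀ a b, compat a b → compat b a
  compat_one : ∀ a, compat one a
  compat_compl : ∀ a b, compat a b → compat a (compl b)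
  compat_inf : ∀ a b d, compat a b → compat a d → compat b d → compat (inf a b) d
  compl_compl : ∀ a, compl (compl a) = a
  inf_one : ∀ a, inf a one = a
  inf_self : ∀ a, inf a a = a
  inf_compl : ∀ a, inf a (compl a) = compl one
  inf_comm : ∀ a b, compat a b → inf a b = inf b a
  inf_assoc : ∀ a b d, compat a b → compat a d → compat b d →
    inf (inf a b) d = inf a (inf b d)
  huntington : ∀ a b, compat a b →
    compl (inf (compl (inf a b)) (compl (inf a (compl b)))) = a
  excl : ∀ p q e, compat p e → compat q e → inf p e = p → inf q (compl e) = q → compat p q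

namespace CPBA

variable {B : Type*} [CPBA B]

/-- the zero event -/
def zero : B := compl (one : B)

/-- pairwise compatible closed sets carrying a Boolean algebra -/
structure Ctx (B : Type*) [CPBA B] where
  carrier : Set B
  pw : ∀ a ∈ carrier, ∀ b ∈ carrier, compat a b
  one_mem : (one : B) ∈ carrier
  compl_mem : ∀ a ∈ carrier, compl a ∈ carrier
  inf_mem : ∀ a ∈ carrier, ∀ b ∈ carrier, inf a b ∈ carrier

/-- elements of a context -/
def Ctx.El (M : Ctx B) : Type _ := {b : B // b ∈ M.carrier}

theorem exists_ctx (S : Set B) (hS : ∀ a ∈ S, ∀ b ∈ S, compat a b) :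
    ∃ M : Ctx B, S ⊆ M.carrier := by
  obtain ⟨M, hSM, hM⟩ := zorn_subset_nonempty
    {T : Set B | ∀ a ∈ T, ∀ b ∈ T, compat a b} (by
      intro c hc hchain hne
      refine ⟨⋃₀ c, ?_, fun s hs => Set.subset_sUnion_of_mem hs⟩
      rintro a ⟨s, hs, has⟩ b ⟨t, ht, hbt⟩
      rcases hchain.total hs ht with h | h
      · exact hc ht a (h has) b hbt
      · exact hc hs a has b (h hbt)) S hS
  have key : ∀ x : B, (∀ a ∈ M, compat x a) → x ∈ M := by
    intro x hx
    have h1 : insert x M ∈ {T : Set B | ∀ a ∈ T, ∀ b ∈ T, compat a b} := by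
      intro a ha b hb
      rcases Set.mem_insert_iff.1 ha with ha | ha
      · rcases Set.mem_insert_iff.1 hb with hb | hb
        · rw [ha, hb]; exact compat_refl _
        · rw [ha]; exact hx b hb
      · rcases Set.mem_insert_iff.1 hb with hb | hb
        · rw [hb]; exact compat_symm _ _ (hx a ha)
        · exact hM.prop a ha b hb
    exact hM.le_of_ge h1 (Set.subset_insert x M) (Set.mem_insert x M)
  refine ⟨⟨M, hM.prop, ?_, ?_, ?_⟩, hSM⟩
  · exact key _ fun a _ => compat_one a
  · intro a ha
    exact key _ fun b hb => compat_symm _ _ (compat_compl _ _ (hM.prop b hb a ha))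
  · intro a ha b hb
    exact key _ fun d hd => compat_inf _ _ _ (hM.prop a ha b hb) (hM.prop a ha d hd)
      (hM.prop b hb d hd)

namespace Ctx

variable (M : Ctx B)

/-- meet in a context -/
def inf' (a b : M.El) : M.El := ⟨CPBA.inf a.1 b.1, M.inf_mem _ a.2 _ b.2⟩
/-- complement in a context -/
def compl' (a : M.El) : M.El := ⟨CPBA.compl a.1, M.compl_mem _ a.2⟩
/-- top of a context -/
def one' : M.El := ⟨one, M.one_mem⟩

variable {M}

theorem inf'_comm (a b : M.El) : M.inf' a b = M.inf' b a :=
  Subtype.ext (CPBA.inf_comm _ _ (M.pw _ a.2 _ b.2))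

theorem inf'_assoc (a b d : M.El) : M.inf' (M.inf' a b) d = M.inf' a (M.inf' b d) :=
  Subtype.ext (CPBA.inf_assoc _ _ _ (M.pw _ a.2 _ b.2) (M.pw _ a.2 _ d.2) (M.pw _ b.2 _ d.2))

theorem inf'_self (a : M.El) : M.inf' a a = a := Subtype.ext (CPBA.inf_self _)

theorem compl'_compl' (a : M.El) : M.compl' (M.compl' a) = a := Subtype.ext (CPBA.compl_compl _)

theorem inf'_one' (a : M.El) : M.inf' a M.one' = a := Subtype.ext (CPBA.inf_one _)

theorem inf'_compl' (a : M.El) : M.inf' a (M.compl' a) = M.compl' M.one' :=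
  Subtype.ext (CPBA.inf_compl _)

theorem huntington' (a b : M.El) :
    M.compl' (M.inf' (M.compl' (M.inf' a b)) (M.compl' (M.inf' a (M.compl' b)))) = a :=
  Subtype.ext (CPBA.huntington _ _ (M.pw _ a.2 _ b.2))

theorem inf'_zero (a : M.El) : M.inf' a (M.compl' M.one') = M.compl' M.one' := by
  rw [← inf'_compl' a, ← inf'_assoc, inf'_self]

theorem key (a b : M.El) : M.inf' a b = a ↔ M.inf' a (M.compl' b) = M.compl' M.one' := by
  constructor
  · intro h
    rw [← h, inf'_assoc, inf'_compl', inf'_zero]
  · intro h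
    have h1 := huntington' a b
    rw [h, compl'_compl', inf'_one', compl'_compl'] at h1
    exact h1

instance : Lattice M.El where
  le a b := M.inf' a b = a
  le_refl a := inf'_self a
  le_trans a b d hab hbd := by
    show M.inf' a d = a
    have h1 : M.inf' a b = a := hab
    have h2 : M.inf' b d = b := hbd
    rw [← h1, inf'_assoc, h2]
  le_antisymm a b hab hba := by
    have h1 : M.inf' a b = a := hab
    have h2 : M.inf' b a = b := hba
    rw [← h1, inf'_comm, h2]
  sup a b := M.compl' (M.inf' (M.compl' a) (M.compl' b))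
  inf := M.inf'
  inf_le_left a b := by
    show M.inf' (M.inf' a b) a = M.inf' a b
    rw [inf'_comm _ a, ← inf'_assoc, inf'_self]
  inf_le_right a b := by
    show M.inf' (M.inf' a b) b = M.inf' a b
    rw [inf'_assoc, inf'_self]
  le_inf a b d hab had := by
    show M.inf' a (M.inf' b d) = a
    have h1 : M.inf' a b = a := hab
    have h2 : M.inf' a d = a := had
    rw [← inf'_assoc, h1, h2]
  le_sup_left a b := by
    show M.inf' a (M.compl' (M.inf' (M.compl' a) (M.compl' b))) = a
    rw [key, compl'_compl', ← inf'_assoc, inf'_compl', inf'_comm, inf'_zero]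
  le_sup_right a b := by
    show M.inf' b (M.compl' (M.inf' (M.compl' a) (M.compl' b))) = b
    rw [key, compl'_compl', inf'_comm (M.compl' a) (M.compl' b), ← inf'_assoc, inf'_compl',
      inf'_comm, inf'_zero]
  sup_le a b d had hbd := by
    show M.inf' (M.compl' (M.inf' (M.compl' a) (M.compl' b))) d = _
    have h1 : M.inf' a d = a := had
    have h2 : M.inf' b d = b := hbd
    have h3 : M.inf' (M.compl' d) (M.compl' a) = M.compl' d := by
      rw [key, compl'_compl', inf'_comm]; rwa [key] at h1
    have h4 : M.inf' (M.compl' d) (M.compl' b) = M.compl' d := by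
      rw [key, compl'_compl', inf'_comm]; rwa [key] at h2
    have h5 : M.inf' (M.compl' d) (M.inf' (M.compl' a) (M.compl' b)) = M.compl' d := by
      rw [← inf'_assoc, h3, h4]
    rw [key, inf'_comm]
    rwa [key] at h5

theorem le_iff (a b : M.El) : a ≤ b ↔ M.inf' a (M.compl' b) = M.compl' M.one' := key a b

theorem inf_def (a b : M.El) : a ⊓ b = M.inf' a b := rfl

theorem sup_def (a b : M.El) : a ⊔ b = M.compl' (M.inf' (M.compl' a) (M.compl' b)) := rfl

theorem eq_zero_of_le {a : M.El} (b : M.El) (h1 : a ≤ b) (h2 : a ≤ M.compl' b) :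
    a = M.compl' M.one' := by
  have h3 : M.inf' a b = a := h1
  rw [le_iff, compl'_compl'] at h2
  rw [← h3, h2]

theorem le_compl'_of {a b : M.El} (h : M.inf' a b = M.compl' M.one') : a ≤ M.compl' b := by
  rw [le_iff, compl'_compl', h]

theorem compl'_le {a b : M.El} (h : a ≤ b) : M.compl' b ≤ M.compl' a := by
  rw [le_iff, compl'_compl', inf'_comm]; rwa [le_iff] at h

theorem inf_sup_le' (a b d : M.El) : a ⊓ (b ⊔ d) ≤ a ⊓ b ⊔ a ⊓ d := by
  rw [le_iff, sup_def (a ⊓ b), compl'_compl']
  set y : M.El := a ⊓ (M.compl' (a ⊓ b) ⊓ M.compl' (a ⊓ d)) with hy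
  have hyb : y ≤ M.compl' b := by
    apply le_compl'_of
    apply eq_zero_of_le (a ⊓ b)
    · show y ⊓ b ≤ a ⊓ b
      exact le_inf (inf_le_left.trans inf_le_left) inf_le_right
    · show y ⊓ b ≤ _
      exact inf_le_left.trans (inf_le_right.trans inf_le_left)
  have hyd : y ≤ M.compl' d := by
    apply le_compl'_of
    apply eq_zero_of_le (a ⊓ d)
    · show y ⊓ d ≤ a ⊓ d
      exact le_inf (inf_le_left.trans inf_le_left) inf_le_right
    · show y ⊓ d ≤ _
      exact inf_le_left.trans (inf_le_right.trans inf_le_right)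
  have hyz : y ≤ M.compl' (b ⊔ d) := by
    rw [sup_def, compl'_compl']
    exact le_inf hyb hyd
  show a ⊓ (b ⊔ d) ⊓ (M.compl' (a ⊓ b) ⊓ M.compl' (a ⊓ d)) = _
  apply eq_zero_of_le (b ⊔ d)
  · exact inf_le_left.trans inf_le_right
  · refine le_trans ?_ hyz
    exact le_inf (inf_le_left.trans inf_le_left) inf_le_right

instance : DistribLattice M.El := DistribLattice.ofInfSupLe inf_sup_le'

instance : BooleanAlgebra M.El where
  top := M.one'
  bot := M.compl' M.one'
  compl := M.compl'
  inf_compl_le_bot a := by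
    show M.inf' (M.inf' a (M.compl' a)) (M.compl' M.one') = _
    rw [inf'_zero]; exact (inf'_compl' a).symm
  top_le_sup_compl a := by
    show M.inf' M.one' (M.compl' (M.inf' (M.compl' a) (M.compl' (M.compl' a)))) = _
    rw [inf'_compl', compl'_compl', inf'_self]
  le_top a := inf'_one' a
  bot_le a := by
    show M.inf' (M.compl' M.one') a = _
    rw [inf'_comm, inf'_zero]

@[simp] theorem coe_inf (a b : M.El) : (a ⊓ b).1 = CPBA.inf a.1 b.1 := rfl
@[simp] theorem coe_compl (a : M.El) : (aᶜ).1 = CPBA.compl a.1 := rfl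
@[simp] theorem coe_top : (⊤ : M.El).1 = CPBA.one := rfl
@[simp] theorem coe_bot : (⊥ : M.El).1 = CPBA.zero := rfl

end Ctx

end CPBA

end Vale.Agent.P196.E3
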