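import Vale.Agent.P196.E3.Next

/-!
Decoding: the tiles near `2u` as functions of the desubstituted tile at `u`, and the
commutation theorem.
-/

namespace Vale.Agent.P196.E3

open CPBA Vale.Agent.P196.Wang

variable {B : Type*} [CPBA B]

theorem sub9_00 (l : Bool × Bool) (b : Bare) : sub9 (relabel l b) 0 0 = .ee b := by
  show Tile.ee (relabel l b).bare = _
  rw [relabel_bare]

theorem relabel_e' (l : Bool × Bool) (τ : Tile) : (relabel l τ.bare).e = τ.e := relabel_e _ _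
theorem relabel_w' (l : Bool × Bool) (τ : Tile) : (relabel l τ.bare).w = τ.w := relabel_w _ _
theorem relabel_n' (l : Bool × Bool) (τ : Tile) : (relabel l τ.bare).n = τ.n := relabel_n _ _
theorem relabel_s' (l : Bool × Bool) (τ : Tile) : (relabel l τ.bare).s = τ.s := relabel_s _ _

namespace IsD

variable {P : B} {T : ℤ × ℤ → Set Tile → B}

theorem next_apply (k : Bool × Bool) (x y : ℤ) (S : Set Tile) :
    next k T (x + sh k.1, y + sh k.2) S = inf (T (1, 1) {.cc k})
      (T (2 * x, 2 * y) {τ | relabel (xr k (par (x, y))) τ.bare ∈ S}) := by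
  unfold next
  rw [par_sh]
  simp only [add_sub_cancel_right]

/-- the value of `next` may be computed with the right label -/
theorem next_apply' (h : IsD P T) (k : Bool × Bool) (x y : ℤ) (S : Set Tile) (S' : Set Tile)
    (hS : ∀ τ : Tile, τ.lab = (false, false) →
      (relabel (xr k (par (x, y))) τ.bare).lab = xr k (par (x, y)) →
      (relabel (xr k (par (x, y))) τ.bare ∈ S ↔ τ ∈ S')) :
    next k T (x + sh k.1, y + sh k.2) S = inf (T (1, 1) {.cc k}) (T (2 * x, 2 * y) S') := by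
  rw [next_apply]
  apply h.supp_congr _ (fun s => h.compat_cc k _ s) (h.lab_next k x y)
  rw [par_00]
  intro τ h1 h2
  exact hS τ h1 h2

theorem dec_00 (h : IsD P T) (k : Bool × Bool) (x y : ℤ) (S : Set Tile) :
    inf (T (1, 1) {.cc k}) (T (2 * x + 0, 2 * y + 0) S) =
      next k T (x + sh k.1, y + sh k.2) {τ | sub9 τ 0 0 ∈ S} := by
  rw [add_zero, add_zero]
  symm
  apply h.next_apply'
  intro τ h1 h2
  show sub9 _ 0 0 ∈ S ↔ _
  rw [sub9_00, fact_ee τ h1]

theorem dec_10 (h : IsD P T) (k : Bool × Bool) (x y : ℤ) (S : Set Tile) :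
    inf (T (1, 1) {.cc k}) (T (2 * x + 1, 2 * y + 0) S) =
      next k T (x + sh k.1, y + sh k.2) {τ | sub9 τ 1 0 ∈ S} := by
  rw [add_zero]
  have h1 := h.next_apply' k x y {τ | sub9 τ 1 0 ∈ S}
    {τ | τ.e ∈ {c : Col | Tile.hh c.1 (xr k (par (x, y))).1
      (if (xr k (par (x, y))).2 then none else some c.2) ∈ S}} (by
      intro τ h1 h2
      show Tile.hh _ _ _ ∈ S ↔ Tile.hh _ _ _ ∈ S
      rw [h2, relabel_e'])
  rw [h1, h.he]
  apply h.inf_congr _ (h.n_10 k x y).symm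
  rw [par_10]
  intro τ h2 h3
  show τ ∈ S ↔ Tile.hh _ _ _ ∈ S
  rw [fact_hh _ τ h2 h3]

theorem dec_m0 (h : IsD P T) (k : Bool × Bool) (x y : ℤ) (S : Set Tile) :
    inf (T (1, 1) {.cc k}) (T (2 * x + (-1), 2 * y + 0) S) =
      next k T (x + sh k.1, y + sh k.2) {τ | sub9 τ (-1) 0 ∈ S} := by
  rw [add_zero]
  have h1 := h.next_apply' k x y {τ | sub9 τ (-1) 0 ∈ S}
    {τ | τ.w ∈ {c : Col | Tile.hh c.1 (!(xr k (par (x, y))).1)
      (if (xr k (par (x, y))).2 then none else some c.2) ∈ S}} (by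
      intro τ h1 h2
      show Tile.hh _ _ _ ∈ S ↔ Tile.hh _ _ _ ∈ S
      rw [h2, relabel_w'])
  have h2 := h.he (2 * x - 1) (2 * y) {c : Col | Tile.hh c.1 (!(xr k (par (x, y))).1)
      (if (xr k (par (x, y))).2 then none else some c.2) ∈ S}
  rw [show (2 * x - 1 + 1 : ℤ) = 2 * x by ring] at h2
  have h3 := h.n_10 k (x - 1) y
  rw [h1, ← h2, show (2 * x + -1 : ℤ) = 2 * (x - 1) + 1 by ring,
    show (2 * x - 1 : ℤ) = 2 * (x - 1) + 1 by ring]
  apply h.inf_congr _ h3.symm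
  rw [par_10]
  intro τ h4 h5
  have h6 : (xr k (par (x - 1, y))) = (!(xr k (par (x, y))).1, (xr k (par (x, y))).2) := by
    rw [par_pred_fst, xr_not_fst]
  rw [h6] at h5
  show τ ∈ S ↔ Tile.hh _ _ _ ∈ S
  have := fact_hh' _ τ h4 h5
  rw [this]

theorem dec_01 (h : IsD P T) (k : Bool × Bool) (x y : ℤ) (S : Set Tile) :
    inf (T (1, 1) {.cc k}) (T (2 * x + 0, 2 * y + 1) S) =
      next k T (x + sh k.1, y + sh k.2) {τ | sub9 τ 0 1 ∈ S} := by
  rw [add_zero]
  have h1 := h.next_apply' k x y {τ | sub9 τ 0 1 ∈ S}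
    {τ | τ.n ∈ {c : Col | Tile.vv c.1 (xr k (par (x, y))).2
      (if (xr k (par (x, y))).1 then none else some c.2) ∈ S}} (by
      intro τ h1 h2
      show Tile.vv _ _ _ ∈ S ↔ Tile.vv _ _ _ ∈ S
      rw [h2, relabel_n'])
  rw [h1, h.hn]
  apply h.inf_congr _ (h.e_01 k x y).symm
  rw [par_01]
  intro τ h2 h3
  show τ ∈ S ↔ Tile.vv _ _ _ ∈ S
  rw [fact_vv _ τ h2 h3]

theorem dec_0m (h : IsD P T) (k : Bool × Bool) (x y : ℤ) (S : Set Tile) :
    inf (T (1, 1) {.cc k}) (T (2 * x + 0, 2 * y + (-1)) S) =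
      next k T (x + sh k.1, y + sh k.2) {τ | sub9 τ 0 (-1) ∈ S} := by
  rw [add_zero]
  have h1 := h.next_apply' k x y {τ | sub9 τ 0 (-1) ∈ S}
    {τ | τ.s ∈ {c : Col | Tile.vv c.1 (!(xr k (par (x, y))).2)
      (if (xr k (par (x, y))).1 then none else some c.2) ∈ S}} (by
      intro τ h1 h2
      show Tile.vv _ _ _ ∈ S ↔ Tile.vv _ _ _ ∈ S
      rw [h2, relabel_s'])
  have h2 := h.hn (2 * x) (2 * y - 1) {c : Col | Tile.vv c.1 (!(xr k (par (x, y))).2)
      (if (xr k (par (x, y))).1 then none else some c.2) ∈ S}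
  rw [show (2 * y - 1 + 1 : ℤ) = 2 * y by ring] at h2
  have h3 := h.e_01 k x (y - 1)
  rw [h1, ← h2, show (2 * y + -1 : ℤ) = 2 * (y - 1) + 1 by ring,
    show (2 * y - 1 : ℤ) = 2 * (y - 1) + 1 by ring]
  apply h.inf_congr _ h3.symm
  rw [par_01]
  intro τ h4 h5
  have h6 : (xr k (par (x, y - 1))) = ((xr k (par (x, y))).1, !(xr k (par (x, y))).2) := by
    rw [par_pred_snd, xr_not_snd]
  rw [h6] at h5
  show τ ∈ S ↔ Tile.vv _ _ _ ∈ S
  have := fact_vv' _ τ h4 h5
  rw [this]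

/-- the crosses at the odd-odd sites are constant -/
theorem dec_cc (h : IsD P T) (k : Bool × Bool) (x y : ℤ) (S : Set Tile) (X Y : ℤ)
    (κ : Bool × Bool) (hκ : κ = xr k (par (X, Y))) (S' : Set Tile)
    (hS : ∀ τ : Tile, τ.lab = xr k (par (x, y)) → (τ ∈ S' ↔ Tile.cc κ ∈ S)) :
    inf (T (1, 1) {.cc k}) (T (2 * X + 1, 2 * Y + 1) S) =
      next k T (x + sh k.1, y + sh k.2) S' := by
  have h1 := h.next_apply' k x y S' {_τ | Tile.cc κ ∈ S} (by
    intro τ h1 h2
    rw [hS _ h2]; rfl)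
  rw [h1]
  have h2 : inf (T (1, 1) {.cc k}) (T (2 * X + 1, 2 * Y + 1) S) =
      inf (T (1, 1) {.cc k}) (T (2 * X + 1, 2 * Y + 1) {_τ | Tile.cc κ ∈ S}) := by
    apply h.inf_congr _ (h.cc_all k X Y).symm
    intro τ _ h3
    rw [Set.mem_singleton_iff] at h3
    rw [h3, ← hκ]; rfl
  rw [h2]
  by_cases hc : Tile.cc κ ∈ S
  · have : {_τ : Tile | Tile.cc κ ∈ S} = Set.univ := Set.eq_univ_of_forall fun _ => hc
    rw [this, (h.obs _).univ, (h.obs _).univ]
  · have : {_τ : Tile | Tile.cc κ ∈ S} = ∅ := Set.eq_empty_of_forall_notMem fun _ h => hc h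
    rw [this, (h.obs _).empty, (h.obs _).empty]

/-- **Decoding.** -/
theorem decode (h : IsD P T) (k : Bool × Bool) (x y a b : ℤ) (ha : |a| ≤ 1) (hb : |b| ≤ 1)
    (S : Set Tile) :
    inf (T (1, 1) {.cc k}) (T (2 * x + a, 2 * y + b) S) =
      next k T (x + sh k.1, y + sh k.2) {τ | sub9 τ a b ∈ S} := by
  rw [abs_le] at ha hb
  have ha' : a = -1 ∨ a = 0 ∨ a = 1 := by omega
  have hb' : b = -1 ∨ b = 0 ∨ b = 1 := by omega
  rcases ha' with rfl | rfl | rfl <;> rcases hb' with rfl | rfl | rfl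
  · have := h.dec_cc k x y S (x - 1) (y - 1) (!(xr k (par (x, y))).1, !(xr k (par (x, y))).2)
      (by rw [par_pred_fst, par_pred_snd, xr_not_fst, xr_not_snd])
      {τ | sub9 τ (-1) (-1) ∈ S} (by
        intro τ hτ
        show Tile.cc (!τ.lab.1, !τ.lab.2) ∈ S ↔ _
        rw [hτ])
    rw [← this]
    congr 3 <;> ring
  · exact h.dec_m0 k x y S
  · have := h.dec_cc k x y S (x - 1) y (!(xr k (par (x, y))).1, (xr k (par (x, y))).2)
      (by rw [par_pred_fst, xr_not_fst])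
      {τ | sub9 τ (-1) 1 ∈ S} (by
        intro τ hτ
        show Tile.cc (!τ.lab.1, τ.lab.2) ∈ S ↔ _
        rw [hτ])
    rw [← this]
    congr 3 <;> ring
  · exact h.dec_0m k x y S
  · exact h.dec_00 k x y S
  · exact h.dec_01 k x y S
  · have := h.dec_cc k x y S x (y - 1) ((xr k (par (x, y))).1, !(xr k (par (x, y))).2)
      (by rw [par_pred_snd, xr_not_snd])
      {τ | sub9 τ 1 (-1) ∈ S} (by
        intro τ hτ
        show Tile.cc (τ.lab.1, !τ.lab.2) ∈ S ↔ _
        rw [hτ])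
    rw [← this]
    congr 3 <;> ring
  · exact h.dec_10 k x y S
  · have := h.dec_cc k x y S x y (xr k (par (x, y))) rfl
      {τ | sub9 τ 1 1 ∈ S} (by
        intro τ hτ
        show Tile.cc τ.lab ∈ S ↔ _
        rw [hτ])
    rw [← this]

/-- the class observable -/
theorem obs_cc (h : IsD P T) : IsObs P (fun A : Set (Bool × Bool) =>
    T (1, 1) ((fun τ : Tile => match τ with | .cc k => k | _ => (false, false)) ⁻¹' A)) :=
  (h.obs (1, 1)).map _

theorem obs_cc_single (h : IsD P T) (k : Bool × Bool) :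
    T (1, 1) ((fun τ : Tile => match τ with | .cc k => k | _ => (false, false)) ⁻¹' {k}) =
      T (1, 1) {.cc k} := by
  apply h.congr
  rw [show par (1, 1) = (true, true) from rfl]
  intro τ
  cases τ <;> simp [Tile.lab]

end IsD

/-- halving coordinates -/
theorem half_coord (x y : ℤ) (n : ℕ) (hxy : |x - y| ≤ n) :
    ∃ a b u v : ℤ, |a| ≤ 1 ∧ |b| ≤ 1 ∧ x = 2 * u + a ∧ y = 2 * v + b ∧ |u - v| ≤ (n / 2 : ℕ) := by
  wlog hle : x ≤ y generalizing x y
  · obtain ⟨a, b, u, v, ha, hb, hx, hy, huv⟩ := this y x (by rwa [abs_sub_comm]) (by omega)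
    exact ⟨b, a, v, u, hb, ha, hy, hx, by rwa [abs_sub_comm]⟩
  rw [abs_le] at hxy
  rcases eq_or_lt_of_le hle with rfl | hlt
  · exact ⟨x % 2, x % 2, x / 2, x / 2, by rw [abs_le]; omega, by rw [abs_le]; omega, by omega,
      by omega, by rw [sub_self, abs_zero]; exact Int.natCast_nonneg _⟩
  · refine ⟨-(x % 2), y % 2, (x + 1) / 2, y / 2, by rw [abs_le]; omega, by rw [abs_le]; omega,
      by omega, by omega, ?_⟩
    rw [abs_le]
    constructor <;> push_cast <;> omega

/-- **Quantum rigidity**: all tile events commute. -/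
theorem IsD.compat_all (n : ℕ) : ∀ {P : B} {T : ℤ × ℤ → Set Tile → B}, IsD P T →
    ∀ (v w : ℤ × ℤ) (S S' : Set Tile), |v.1 - w.1| ≤ n → |v.2 - w.2| ≤ n →
      compat (T v S) (T w S') := by
  induction n using Nat.strong_induction_on with
  | _ n ih =>
    intro P T h v w S S' h1 h2
    rcases Nat.eq_zero_or_pos n with rfl | hn
    · have hvw : v = w := by
        rw [Nat.cast_zero, abs_nonpos_iff] at h1 h2
        ext <;> omega
      subst hvw
      exact (h.obs v).pw _ _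
    · obtain ⟨a, b, x, X, ha, hb, ex, eX, hx⟩ := half_coord v.1 w.1 n h1
      obtain ⟨c, d, y, Y, hc, hd, ey, eY, hy⟩ := half_coord v.2 w.2 n h2
      have hv : v = (2 * x + a, 2 * y + c) := by ext <;> simp [ex, ey]
      have hw : w = (2 * X + b, 2 * Y + d) := by ext <;> simp [eX, eY]
      have hcc : ∀ v S, ∀ A : Set (Bool × Bool), compat (T v S) (T (1, 1)
          ((fun τ : Tile => match τ with | .cc k => k | _ => (false, false)) ⁻¹' A)) := by
        intro v S
        apply h.obs_cc.compat_of_single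
        intro k
        rw [h.obs_cc_single]
        exact compat_symm _ _ (h.compat_cc k v S)
      refine h.obs_cc.glue (hcc v S) (hcc w S') ((h.obs v).infP S) ((h.obs w).infP S') ?_
      intro k
      rw [h.obs_cc_single, CPBA.inf_comm _ _ (compat_symm _ _ (h.compat_cc k v S)),
        CPBA.inf_comm _ _ (compat_symm _ _ (h.compat_cc k w S')), hv, hw,
        h.decode k x y a c ha hc, h.decode k X Y b d hb hd]
      refine ih (n / 2) (by omega) (h.next_isD k) _ _ _ _ ?_ ?_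
      · simpa using hx
      · simpa using hy

end Vale.Agent.P196.E3
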