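import Vale.Agent.P196.E3.Decode

/-!
Quantum rigidity for labelled quantum Wang tilings by the 104 tiles.
-/

namespace Vale.Agent.P196.E3

open CPBA Vale.Agent.P196.Wang

variable {B : Type*} [CPBA B]

/-- A quantum Wang tiling by the 104 tiles, with unit `P`. -/
structure QWT (P : B) (T : ℤ × ℤ → Set Tile → B) : Prop where
  obs : ∀ v, IsObs P (T v)
  east : ∀ x y (C : Set Tile.WCol), T (x, y) {τ | τ.east ∈ C} = T (x + 1, y) {τ | τ.west ∈ C}
  north : ∀ x y (C : Set Tile.WCol), T (x, y) {τ | τ.north ∈ C} = T (x, y + 1) {τ | τ.south ∈ C}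

namespace QWT

variable {P : B} {T : ℤ × ℤ → Set Tile → B}

theorem lab_h (h : QWT P T) (x y : ℤ) (A : Set (Bool × Bool)) :
    T (x, y) {τ | τ.lab ∈ A} = T (x + 1, y) {τ | (!τ.lab.1, τ.lab.2) ∈ A} :=
  h.east x y {c | c.2 ∈ A}

theorem lab_v (h : QWT P T) (x y : ℤ) (A : Set (Bool × Bool)) :
    T (x, y) {τ | τ.lab ∈ A} = T (x, y + 1) {τ | (τ.lab.1, !τ.lab.2) ∈ A} :=
  h.north x y {c | c.2 ∈ A}

theorem lab_h' (h : QWT P T) (x y : ℤ) (c : Bool × Bool) :
    T (x, y) {τ | τ.lab = xr c (par (x, y))} =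
      T (x + 1, y) {τ | τ.lab = xr c (par (x + 1, y))} := by
  have := h.lab_h x y {xr c (par (x, y))}
  refine this.trans ?_
  congr 1
  ext τ
  rw [par_succ_fst, xr_not_fst]
  show (!τ.lab.1, τ.lab.2) = xr c (par (x, y)) ↔ τ.lab = _
  generalize xr c (par (x, y)) = l
  generalize τ.lab = m
  revert l m; decide

theorem lab_v' (h : QWT P T) (x y : ℤ) (c : Bool × Bool) :
    T (x, y) {τ | τ.lab = xr c (par (x, y))} =
      T (x, y + 1) {τ | τ.lab = xr c (par (x, y + 1))} := by
  have := h.lab_v x y {xr c (par (x, y))}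
  refine this.trans ?_
  congr 1
  ext τ
  rw [par_succ_snd, xr_not_snd]
  show (τ.lab.1, !τ.lab.2) = xr c (par (x, y)) ↔ τ.lab = _
  generalize xr c (par (x, y)) = l
  generalize τ.lab = m
  revert l m; decide

theorem lab_all (h : QWT P T) (c : Bool × Bool) (x y : ℤ) :
    T (x, y) {τ | τ.lab = xr c (par (x, y))} = T (0, 0) {τ | τ.lab = c} := by
  have h0 : T (0, 0) {τ | τ.lab = xr c (par (0, 0))} = T (0, 0) {τ | τ.lab = c} := by
    have : xr c (par (0, 0)) = c := by
      obtain ⟨p, q⟩ := c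
      simp [xr, par]
    rw [this]
  have hx : ∀ x : ℤ, T (x, 0) {τ | τ.lab = xr c (par (x, 0))} = T (0, 0) {τ | τ.lab = c} := by
    intro x
    induction x using Int.induction_on with
    | zero => exact h0
    | succ i hi => rw [← h.lab_h', hi]
    | pred i hi =>
      rw [h.lab_h', show (-(i : ℤ) - 1 + 1) = -(i : ℤ) by ring, hi]
  induction y using Int.induction_on with
  | zero => exact hx x
  | succ i hi => rw [← h.lab_v', hi]
  | pred i hi => rw [h.lab_v', show (-(i : ℤ) - 1 + 1) = -(i : ℤ) by ring, hi]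

/-- the part of the quantum tiling on the parity class `c` -/
def cls (c : Bool × Bool) (T : ℤ × ℤ → Set Tile → B) : ℤ × ℤ → Set Tile → B :=
  fun u S => inf (T (0, 0) {τ | τ.lab = c}) (T (u.1 - sh c.1, u.2 - sh c.2) S)

theorem compat_lab (h : QWT P T) (c : Bool × Bool) (v : ℤ × ℤ) (S : Set Tile) :
    compat (T (0, 0) {τ | τ.lab = c}) (T v S) := by
  obtain ⟨x, y⟩ := v
  rw [← h.lab_all c x y]
  exact (h.obs _).pw _ _

theorem cls_isD (h : QWT P T) (c : Bool × Bool) :
    IsD (T (0, 0) {τ | τ.lab = c}) (cls c T) where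
  obs u := by
    have h1 := (h.obs (u.1 - sh c.1, u.2 - sh c.2)).restrict (q := T (0, 0) {τ | τ.lab = c})
      (fun s => h.compat_lab c _ _)
    rw [(h.obs (0, 0)).infP] at h1
    exact h1
  he x y C := by
    unfold cls
    congr 1
    have := h.east (x - sh c.1) (y - sh c.2) {d | d.1 ∈ C}
    rw [show x - sh c.1 + 1 = x + 1 - sh c.1 by ring] at this
    exact this
  hn x y C := by
    unfold cls
    congr 1
    have := h.north (x - sh c.1) (y - sh c.2) {d | d.1 ∈ C}
    rw [show y - sh c.2 + 1 = y + 1 - sh c.2 by ring] at this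
    exact this
  lab u := by
    unfold cls
    rw [IsD.par_eq c u, h.lab_all, CPBA.inf_self]

theorem obs_lab (h : QWT P T) : IsObs P (fun A : Set (Bool × Bool) =>
    T (0, 0) (Tile.lab ⁻¹' A)) :=
  (h.obs (0, 0)).map _

/-- **Quantum rigidity**: in a quantum Wang tiling by the 104 tiles all events commute. -/
theorem compat_all (h : QWT P T) (v w : ℤ × ℤ) (S S' : Set Tile) :
    compat (T v S) (T w S') := by
  have hcc : ∀ v S, ∀ A : Set (Bool × Bool), compat (T v S) (T (0, 0) (Tile.lab ⁻¹' A)) := by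
    intro v S
    apply h.obs_lab.compat_of_single
    intro k
    exact compat_symm _ _ (h.compat_lab k v S)
  refine h.obs_lab.glue (hcc v S) (hcc w S') ((h.obs v).infP S) ((h.obs w).infP S') ?_
  intro k
  rw [CPBA.inf_comm _ _ (hcc v S _), CPBA.inf_comm _ _ (hcc w S' _)]
  have h1 := (h.cls_isD k).compat_all (|v.1 - w.1|.toNat + |v.2 - w.2|.toNat)
    (v.1 + sh k.1, v.2 + sh k.2) (w.1 + sh k.1, w.2 + sh k.2) S S'
    (by simp only [add_sub_add_right_eq_sub]; push_cast; omega)
    (by simp only [add_sub_add_right_eq_sub]; push_cast; omega)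
  unfold cls at h1
  simp only [add_sub_cancel_right] at h1
  exact h1

end QWT

end Vale.Agent.P196.E3
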