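import Vale.Agent.P196.E3.Step

/-!
The desubstituted quantum Wang tiling.
-/

namespace Vale.Agent.P196.E3

open CPBA Vale.Agent.P196.Wang

variable {B : Type*} [CPBA B]

/-- the desubstituted quantum tiling on the event that the `(1,1)` tile is the cross `k` -/
def next (k : Bool × Bool) (T : ℤ × ℤ → Set Tile → B) : ℤ × ℤ → Set Tile → B :=
  fun u S => inf (T (1, 1) {.cc k})
    (T (2 * (u.1 - sh k.1), 2 * (u.2 - sh k.2)) {τ | relabel (par u) τ.bare ∈ S})

/-! finite facts -/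

theorem fact_e10 : ∀ τ : Tile, τ.lab = (true, false) → τ.w = τ.e := by decide
theorem fact_n01 : ∀ τ : Tile, τ.lab = (false, true) → τ.s = τ.n := by decide

theorem fact_qe : ∀ (l : Bool × Bool) (τ : Tile), τ.lab = (true, false) → τ.n = (l, false) →
    l.2 = true → (τ.w.2 = l.1 ∧ τ.e.2 = l.1) := by decide
theorem fact_qn : ∀ (l : Bool × Bool) (τ : Tile), τ.lab = (false, true) → τ.e = (l, false) →
    l.1 = true → (τ.s.2 = l.2 ∧ τ.n.2 = l.2) := by decide
theorem fact_11 : ∀ (τ : Tile), τ.e.2 = true → τ.w.2 = false → τ.n.2 = true → τ.s.2 = false →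
    (relabel (true, true) τ.bare).lab = (true, true) := by decide
theorem fact_10' : ∀ (τ : Tile), τ.n.2 = false → τ.s.2 = true →
    (relabel (true, false) τ.bare).lab = (true, false) := by decide
theorem fact_01' : ∀ (τ : Tile), τ.e.2 = false → τ.w.2 = true →
    (relabel (false, true) τ.bare).lab = (false, true) := by decide
theorem fact_00' : ∀ (τ : Tile), (relabel (false, false) τ.bare).lab = (false, false) := by decide
theorem fact_ee : ∀ τ : Tile, τ.lab = (false, false) → Tile.ee τ.bare = τ := by decide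
theorem fact_hh : ∀ (l : Bool × Bool) (τ : Tile), τ.lab = (true, false) → τ.n = (l, false) →
    Tile.hh τ.w.1 l.1 (if l.2 then none else some τ.w.2) = τ := by decide
theorem fact_hh' : ∀ (l : Bool × Bool) (τ : Tile), τ.lab = (true, false) → τ.n = (l, false) →
    Tile.hh τ.e.1 l.1 (if l.2 then none else some τ.e.2) = τ := by decide
theorem fact_vv : ∀ (l : Bool × Bool) (τ : Tile), τ.lab = (false, true) → τ.e = (l, false) →
    Tile.vv τ.s.1 l.2 (if l.1 then none else some τ.s.2) = τ := by decide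
theorem fact_vv' : ∀ (l : Bool × Bool) (τ : Tile), τ.lab = (false, true) → τ.e = (l, false) →
    Tile.vv τ.n.1 l.2 (if l.1 then none else some τ.n.2) = τ := by decide

/-- the nine tiles around `2u` as functions of the tile at `u` -/
def sub9 (τ : Tile) (a b : ℤ) : Tile :=
  if a = 0 then (if b = 0 then τ.sub false false else if b = 1 then τ.sub false true else subS τ)
  else if a = 1 then (if b = 0 then τ.sub true false else if b = 1 then τ.sub true true else
    .cc (τ.lab.1, !τ.lab.2))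
  else (if b = 0 then subW τ else if b = 1 then .cc (!τ.lab.1, τ.lab.2) else
    .cc (!τ.lab.1, !τ.lab.2))

theorem par_pred_fst (x y : ℤ) : par (x - 1, y) = (!(par (x, y)).1, (par (x, y)).2) := by
  have := par_succ_fst (x - 1) y
  rw [show x - 1 + 1 = x by ring] at this
  rw [this]; simp

theorem par_pred_snd (x y : ℤ) : par (x, y - 1) = ((par (x, y)).1, !(par (x, y)).2) := by
  have := par_succ_snd x (y - 1)
  rw [show y - 1 + 1 = y by ring] at this
  rw [this]; simp

theorem xr_not_fst (k : Bool × Bool) (a b : Bool) : xr k (!a, b) = (!(xr k (a, b)).1, (xr k (a, b)).2) := by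
  simp [xr]

theorem xr_not_snd (k : Bool × Bool) (a b : Bool) : xr k (a, !b) = ((xr k (a, b)).1, !(xr k (a, b)).2) := by
  simp [xr]

namespace IsD

variable {P : B} {T : ℤ × ℤ → Set Tile → B}

theorem inf_congr (h : IsD P T) (v : ℤ × ℤ) {Q : B} {G s t : Set Tile} (hQ : Q = T v G)
    (hst : ∀ τ : Tile, τ.lab = par v → τ ∈ G → (τ ∈ s ↔ τ ∈ t)) :
    inf Q (T v s) = inf Q (T v t) := by
  rw [hQ, ← (h.obs v).inter, ← (h.obs v).inter]
  apply h.congr
  intro τ hτ
  constructor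
  · rintro ⟨h1, h2⟩; exact ⟨h1, (hst τ hτ h1).1 h2⟩
  · rintro ⟨h1, h2⟩; exact ⟨h1, (hst τ hτ h1).2 h2⟩

theorem inf_eq_self (h : IsD P T) (v : ℤ × ℤ) {Q : B} {G s : Set Tile} (hQ : Q = T v G)
    (hst : ∀ τ : Tile, τ.lab = par v → τ ∈ G → τ ∈ s) :
    inf Q (T v s) = Q := by
  have : inf Q (T v s) = inf Q (T v Set.univ) := h.inf_congr v hQ (fun τ h1 h2 => by
    simp [hst τ h1 h2])
  rw [this, hQ, (h.obs v).univ, (h.obs v).infP]

theorem supp_congr (h : IsD P T) (v : ℤ × ℤ) {Q : B} {U s t : Set Tile}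
    (hc : ∀ s, compat Q (T v s)) (hU : inf Q (T v U) = Q)
    (hst : ∀ τ : Tile, τ.lab = par v → τ ∈ U → (τ ∈ s ↔ τ ∈ t)) :
    inf Q (T v s) = inf Q (T v t) := by
  have h1 : ∀ s, inf Q (T v s) = inf Q (T v (U ∩ s)) := by
    intro s
    conv_lhs => rw [← hU]
    rw [CPBA.inf_assoc _ _ _ (hc _) (hc _) ((h.obs v).pw _ _), ← (h.obs v).inter]
  rw [h1 s, h1 t]
  congr 1
  apply h.congr
  intro τ hτ
  constructor
  · rintro ⟨h1, h2⟩; exact ⟨h1, (hst τ hτ h1).1 h2⟩
  · rintro ⟨h1, h2⟩; exact ⟨h1, (hst τ hτ h1).2 h2⟩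

theorem supp_mono (h : IsD P T) (v : ℤ × ℤ) {Q : B} {U s : Set Tile}
    (hc : ∀ s, compat Q (T v s)) (hU : inf Q (T v U) = Q)
    (hst : ∀ τ : Tile, τ.lab = par v → τ ∈ U → τ ∈ s) :
    inf Q (T v s) = Q := by
  rw [← hU]
  conv_rhs => rw [← hU]
  have := h.supp_congr v hc hU (s := s) (t := U) (fun τ h1 h2 => by simp [hst τ h1 h2, h2])
  rw [hU]; rw [this, hU]

theorem supp_inter (h : IsD P T) (v : ℤ × ℤ) {Q : B} {s t : Set Tile}
    (hc : ∀ s, compat Q (T v s)) (hs : inf Q (T v s) = Q) (ht : inf Q (T v t) = Q) :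
    inf Q (T v (s ∩ t)) = Q := by
  rw [(h.obs v).inter, inf_inf_dist (hc _) (hc _) ((h.obs v).pw _ _), hs, ht, CPBA.inf_self]

/-- east colours at `(2x,2y)` when the new label is `(l.1, true)` -/
theorem qe (h : IsD P T) (k : Bool × Bool) (x y : ℤ) (hl : (xr k (par (x, y))).2 = true) :
    inf (T (1, 1) {.cc k}) (T (2 * x, 2 * y) {τ | τ.e ∈ {c : Col | c.2 = (xr k (par (x, y))).1}}) =
      T (1, 1) {.cc k} := by
  rw [h.he]
  apply h.inf_eq_self _ (h.n_10 k x y).symm
  rw [par_10]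
  intro τ h1 h2
  exact (fact_qe _ τ h1 h2 hl).1

theorem qw (h : IsD P T) (k : Bool × Bool) (x y : ℤ) (hl : (xr k (par (x, y))).2 = true) :
    inf (T (1, 1) {.cc k}) (T (2 * x, 2 * y) {τ | τ.w ∈ {c : Col | c.2 = !(xr k (par (x, y))).1}}) =
      T (1, 1) {.cc k} := by
  have h1 := h.he (2 * x - 1) (2 * y) {c : Col | c.2 = !(xr k (par (x, y))).1}
  rw [show (2 * x - 1 + 1 : ℤ) = 2 * x by ring] at h1
  have h2 := h.n_10 k (x - 1) y
  rw [← h1, show (2 * x - 1 : ℤ) = 2 * (x - 1) + 1 by ring]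
  apply h.inf_eq_self _ h2.symm
  rw [par_10]
  intro τ h3 h4
  have h5 : (xr k (par (x - 1, y))) = (!(xr k (par (x, y))).1, (xr k (par (x, y))).2) := by
    rw [par_pred_fst, xr_not_fst]
  rw [h5] at h4
  exact (fact_qe _ τ h3 h4 hl).2

theorem qn (h : IsD P T) (k : Bool × Bool) (x y : ℤ) (hl : (xr k (par (x, y))).1 = true) :
    inf (T (1, 1) {.cc k}) (T (2 * x, 2 * y) {τ | τ.n ∈ {c : Col | c.2 = (xr k (par (x, y))).2}}) =
      T (1, 1) {.cc k} := by
  rw [h.hn]
  apply h.inf_eq_self _ (h.e_01 k x y).symm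
  rw [par_01]
  intro τ h1 h2
  exact (fact_qn _ τ h1 h2 hl).1

theorem qs (h : IsD P T) (k : Bool × Bool) (x y : ℤ) (hl : (xr k (par (x, y))).1 = true) :
    inf (T (1, 1) {.cc k}) (T (2 * x, 2 * y) {τ | τ.s ∈ {c : Col | c.2 = !(xr k (par (x, y))).2}}) =
      T (1, 1) {.cc k} := by
  have h1 := h.hn (2 * x) (2 * y - 1) {c : Col | c.2 = !(xr k (par (x, y))).2}
  rw [show (2 * y - 1 + 1 : ℤ) = 2 * y by ring] at h1
  have h2 := h.e_01 k x (y - 1)
  rw [← h1, show (2 * y - 1 : ℤ) = 2 * (y - 1) + 1 by ring]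
  apply h.inf_eq_self _ h2.symm
  rw [par_01]
  intro τ h3 h4
  have h5 : (xr k (par (x, y - 1))) = ((xr k (par (x, y))).1, !(xr k (par (x, y))).2) := by
    rw [par_pred_snd, xr_not_snd]
  rw [h5] at h4
  exact (fact_qn _ τ h3 h4 hl).2

/-- the new label law -/
theorem lab_next (h : IsD P T) (k : Bool × Bool) (x y : ℤ) :
    inf (T (1, 1) {.cc k}) (T (2 * x, 2 * y)
      {τ | (relabel (xr k (par (x, y))) τ.bare).lab = xr k (par (x, y))}) = T (1, 1) {.cc k} := by
  have hc := fun s => h.compat_cc k (2 * x, 2 * y) s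
  have e1 := h.qe k x y
  have e2 := h.qw k x y
  have e3 := h.qn k x y
  have e4 := h.qs k x y
  generalize xr k (par (x, y)) = l at *
  obtain ⟨p, q⟩ := l
  cases p <;> cases q
  · apply h.supp_mono _ hc (U := Set.univ)
    · rw [(h.obs _).univ, (h.obs (1, 1)).infP]
    · intro τ _ _; exact fact_00' τ
  · have := h.supp_inter _ hc (e1 rfl) (e2 rfl)
    apply h.supp_mono _ hc this
    intro τ _ h2
    exact fact_01' τ h2.1 h2.2
  · have := h.supp_inter _ hc (e3 rfl) (e4 rfl)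
    apply h.supp_mono _ hc this
    intro τ _ h2
    exact fact_10' τ h2.1 h2.2
  · have := h.supp_inter _ hc (h.supp_inter _ hc (e1 rfl) (e2 rfl))
      (h.supp_inter _ hc (e3 rfl) (e4 rfl))
    apply h.supp_mono _ hc this
    intro τ _ h2
    exact fact_11 τ h2.1.1 h2.1.2 h2.2.1 h2.2.2

theorem par_eq (k : Bool × Bool) (u : ℤ × ℤ) :
    par u = xr k (par (u.1 - sh k.1, u.2 - sh k.2)) := by
  have := par_sh k (u.1 - sh k.1) (u.2 - sh k.2)
  rw [sub_add_cancel, sub_add_cancel] at this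
  exact this

/-- **Desubstitution.** -/
theorem next_isD (h : IsD P T) (k : Bool × Bool) : IsD (T (1, 1) {.cc k}) (next k T) where
  obs u := by
    have h1 := ((h.obs (2 * (u.1 - sh k.1), 2 * (u.2 - sh k.2))).map
      (fun τ => relabel (par u) τ.bare)).restrict (q := T (1, 1) {.cc k})
      (fun s => h.compat_cc k _ _)
    rw [(h.obs (1, 1)).infP] at h1
    exact h1
  he x y C := by
    unfold next
    congr 1
    have e1 : {τ : Tile | relabel (par (x, y)) τ.bare ∈ {τ : Tile | τ.e ∈ C}} =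
        {τ | τ.e ∈ C} := by
      ext τ
      show (relabel _ _).e ∈ C ↔ _
      rw [relabel_e]; rfl
    have e2 : {τ : Tile | relabel (par (x + 1, y)) τ.bare ∈ {τ : Tile | τ.w ∈ C}} =
        {τ | τ.w ∈ C} := by
      ext τ
      show (relabel _ _).w ∈ C ↔ _
      rw [relabel_w]; rfl
    rw [e1, e2, h.he]
    have e3 : T (2 * (x - sh k.1) + 1, 2 * (y - sh k.2)) {τ | τ.w ∈ C} =
        T (2 * (x - sh k.1) + 1, 2 * (y - sh k.2)) {τ | τ.e ∈ C} := by
      apply h.congr
      rw [par_10]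
      intro τ hτ
      show τ.w ∈ C ↔ τ.e ∈ C
      rw [fact_e10 τ hτ]
    show T (2 * (x - sh k.1) + 1, 2 * (y - sh k.2)) {τ | τ.w ∈ C} = _
    rw [e3, h.he]
    congr 2
    ring
  hn x y C := by
    unfold next
    congr 1
    have e1 : {τ : Tile | relabel (par (x, y)) τ.bare ∈ {τ : Tile | τ.n ∈ C}} =
        {τ | τ.n ∈ C} := by
      ext τ
      show (relabel _ _).n ∈ C ↔ _
      rw [relabel_n]; rfl
    have e2 : {τ : Tile | relabel (par (x, y + 1)) τ.bare ∈ {τ : Tile | τ.s ∈ C}} =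
        {τ | τ.s ∈ C} := by
      ext τ
      show (relabel _ _).s ∈ C ↔ _
      rw [relabel_s]; rfl
    rw [e1, e2, h.hn]
    have e3 : T (2 * (x - sh k.1), 2 * (y - sh k.2) + 1) {τ | τ.s ∈ C} =
        T (2 * (x - sh k.1), 2 * (y - sh k.2) + 1) {τ | τ.n ∈ C} := by
      apply h.congr
      rw [par_01]
      intro τ hτ
      show τ.s ∈ C ↔ τ.n ∈ C
      rw [fact_n01 τ hτ]
    show T (2 * (x - sh k.1), 2 * (y - sh k.2) + 1) {τ | τ.s ∈ C} = _
    rw [e3, h.hn]
    congr 2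
    ring
  lab u := by
    unfold next
    have := h.lab_next k (u.1 - sh k.1) (u.2 - sh k.2)
    rw [← par_eq] at this
    exact this

end IsD

end Vale.Agent.P196.E3
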