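import Vale.Agent.P196.E3.CPBA

/-!
Observables (partitions of a unit event indexed by a finite type) in a coherent partial
Boolean algebra.
-/

namespace Vale.Agent.P196.E3

open CPBA

variable {B : Type*} [CPBA B] {α β : Type*}

namespace CPBA

theorem exists_ctx2 {a b : B} (h : compat a b) :
    ∃ M : Ctx B, a ∈ M.carrier ∧ b ∈ M.carrier := by
  obtain ⟨M, hM⟩ := exists_ctx ({a, b} : Set B) (by
    intro x hx y hy
    rcases hx with rfl | rfl <;> rcases hy with rfl | rfl
    · exact compat_refl _
    · exact h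
    · exact compat_symm _ _ h
    · exact compat_refl _)
  exact ⟨M, hM (by simp), hM (by simp)⟩

theorem exists_ctx3 {a b d : B} (h : compat a b) (h2 : compat a d) (h3 : compat b d) :
    ∃ M : Ctx B, a ∈ M.carrier ∧ b ∈ M.carrier ∧ d ∈ M.carrier := by
  obtain ⟨M, hM⟩ := exists_ctx ({a, b, d} : Set B) (by
    intro x hx y hy
    rcases hx with rfl | rfl | rfl <;> rcases hy with rfl | rfl | rfl <;>
    first
      | exact compat_refl _
      | assumption
      | (apply compat_symm; assumption))
  exact ⟨M, hM (by simp), hM (by simp), hM (by simp)⟩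

theorem compat_compl_left {a b : B} (h : compat a b) : compat (compl a) b :=
  compat_symm _ _ (compat_compl _ _ (compat_symm _ _ h))

theorem compat_inf_right {a b d : B} (h1 : compat a b) (h2 : compat a d) (h3 : compat b d) :
    compat a (inf b d) :=
  compat_symm _ _ (compat_inf _ _ _ h3 (compat_symm _ _ h1) (compat_symm _ _ h2))

theorem compat_zero (a : B) : compat (zero : B) a := compat_compl_left (compat_one a)

theorem compl_zero : compl (zero : B) = one := CPBA.compl_compl _

/-- cancel a common factor -/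
theorem inf_inf_dist {q a b : B} (h1 : compat q a) (h2 : compat q b) (h3 : compat a b) :
    inf q (inf a b) = inf (inf q a) (inf q b) := by
  obtain ⟨M, hq, ha, hb⟩ := exists_ctx3 h1 h2 h3
  let q' : M.El := ⟨q, hq⟩
  let a' : M.El := ⟨a, ha⟩
  let b' : M.El := ⟨b, hb⟩
  have : q' ⊓ (a' ⊓ b') = (q' ⊓ a') ⊓ (q' ⊓ b') := by
    apply le_antisymm
    · exact le_inf (le_inf inf_le_left (inf_le_right.trans inf_le_left))
        (le_inf inf_le_left (inf_le_right.trans inf_le_right))
    · exact le_inf (inf_le_left.trans inf_le_left)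
        (le_inf (inf_le_left.trans inf_le_right) (inf_le_right.trans inf_le_right))
  exact congrArg Subtype.val this

theorem inf_compl_dist {q p a : B} (h1 : compat q p) (h2 : compat q a) (h3 : compat p a) :
    inf q (inf p (compl a)) = inf (inf q p) (compl (inf q a)) := by
  obtain ⟨M, hq, hp, ha⟩ := exists_ctx3 h1 h2 h3
  let q' : M.El := ⟨q, hq⟩
  let p' : M.El := ⟨p, hp⟩
  let a' : M.El := ⟨a, ha⟩
  have : q' ⊓ (p' ⊓ a'ᶜ) = (q' ⊓ p') ⊓ (q' ⊓ a')ᶜ := by
    rw [_root_.compl_inf, inf_sup_left]
    have h : q' ⊓ p' ⊓ q'ᶜ = ⊥ := by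
      rw [_root_.inf_assoc, inf_left_comm, inf_compl_self, inf_bot_eq]
    rw [h, bot_sup_eq, _root_.inf_assoc]
  exact congrArg Subtype.val this

end CPBA

/-- `f` is an observable with values in `α` and unit `P`. -/
structure IsObs (P : B) (f : Set α → B) : Prop where
  pw : ∀ s t, compat (f s) (f t)
  univ : f Set.univ = P
  inter : ∀ s t, f (s ∩ t) = inf (f s) (f t)
  compl' : ∀ s, f sᶜ = inf P (compl (f s))

namespace IsObs

variable {P : B} {f : Set α → B}

theorem pwP (h : IsObs P f) (s : Set α) : compat P (f s) := h.univ ▸ h.pw _ _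

theorem infP (h : IsObs P f) (s : Set α) : inf (f s) P = f s := by
  rw [← h.univ, ← h.inter, Set.inter_univ]

theorem infP' (h : IsObs P f) (s : Set α) : inf P (f s) = f s := by
  rw [← h.univ, ← h.inter, Set.univ_inter]

theorem empty (h : IsObs P f) : f ∅ = zero := by
  rw [← Set.compl_univ, h.compl', h.univ, CPBA.inf_compl]; rfl

/-- an observable only depends on the part in the support -/
theorem congr (h : IsObs P f) {U : Set α} (hU : f U = P) {s t : Set α}
    (hst : ∀ a ∈ U, (a ∈ s ↔ a ∈ t)) : f s = f t := by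
  have h1 : ∀ s, f (s ∩ U) = f s := fun s => by rw [h.inter, hU, h.infP]
  rw [← h1 s, ← h1 t]
  congr 1
  ext a
  constructor
  · rintro ⟨h1, h2⟩; exact ⟨(hst a h2).1 h1, h2⟩
  · rintro ⟨h1, h2⟩; exact ⟨(hst a h2).2 h1, h2⟩

theorem union (h : IsObs P f) (s t : Set α) :
    f (s ∪ t) = compl (inf (compl (f s)) (compl (f t))) := by
  obtain ⟨M, hM⟩ := exists_ctx (Set.range f) (by
    rintro _ ⟨s, rfl⟩ _ ⟨t, rfl⟩; exact h.pw s t)
  let g : Set α → M.El := fun s => ⟨f s, hM ⟨s, rfl⟩⟩
  have hc : ∀ s, g sᶜ = g Set.univ ⊓ (g s)ᶜ := fun s =>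
    Subtype.ext (by rw [Ctx.coe_inf, Ctx.coe_compl]; show f sᶜ = _; rw [h.compl', ← h.univ])
  have hi : ∀ s t, g (s ∩ t) = g s ⊓ g t := fun s t =>
    Subtype.ext (by rw [Ctx.coe_inf]; exact h.inter s t)
  have hle : ∀ s, g s ≤ g Set.univ := fun s => by
    rw [← inf_eq_left, ← hi, Set.inter_univ]
  have key : g (s ∪ t) = ((g s)ᶜ ⊓ (g t)ᶜ)ᶜ := by
    have h1 : s ∪ t = (sᶜ ∩ tᶜ)ᶜ := by rw [← Set.compl_union, _root_.compl_compl]
    rw [h1, hc, hi, hc, hc, ← inf_inf_distrib_left, _root_.compl_inf, inf_sup_left,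
      inf_compl_self, bot_sup_eq, _root_.compl_inf, _root_.compl_compl, _root_.compl_compl]
    exact inf_eq_right.2 (sup_le (hle s) (hle t))
  exact congrArg Subtype.val key

/-- compatibility may be checked on singletons -/
theorem compat_of_single [Finite α] (h : IsObs P f) {b : B}
    (hb : ∀ a, compat b (f {a})) (s : Set α) : compat b (f s) := by
  induction s, Set.toFinite s using Set.Finite.induction_on with
  | empty => rw [h.empty]; exact compat_symm _ _ (compat_zero b)
  | @insert a s _ _ ih =>
    rw [Set.insert_eq, h.union]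
    exact compat_compl _ _ (compat_inf_right (compat_compl _ _ (hb a)) (compat_compl _ _ ih)
      (compat_compl _ _ (compat_compl_left (h.pw _ _))))

/-- push forward -/
theorem map (h : IsObs P f) (g : α → β) : IsObs P (fun S : Set β => f (g ⁻¹' S)) where
  pw _ _ := h.pw _ _
  univ := by rw [Set.preimage_univ, h.univ]
  inter s t := by rw [Set.preimage_inter, h.inter]
  compl' s := by rw [Set.preimage_compl, h.compl']

/-- restriction to a compatible event -/
theorem restrict (h : IsObs P f) {q : B} (hq : ∀ s, compat q (f s)) :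
    IsObs (inf q P) (fun s => inf q (f s)) where
  pw s t := by
    have h1 := hq s
    have h2 := hq t
    have h3 := h.pw s t
    have h4 : compat (inf q (f s)) (f t) := compat_inf _ _ _ h1 h2 h3
    have h5 : compat (inf q (f s)) q :=
      compat_inf _ _ _ h1 (compat_refl _) (compat_symm _ _ h1)
    exact compat_inf_right h5 h4 h2
  univ := by rw [h.univ]
  inter s t := by
    simp only [h.inter]
    exact inf_inf_dist (hq s) (hq t) (h.pw s t)
  compl' s := by
    simp only [h.compl']
    have hqP : compat q P := by rw [← h.univ]; exact hq _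
    exact inf_compl_dist hqP (hq s) (h.pwP s)

/-- Gluing: compatibility may be checked on the pieces of a partition. -/
theorem glue [Finite α] (h : IsObs P f) {x y : B} (hx : ∀ s, compat x (f s))
    (hy : ∀ s, compat y (f s)) (hxP : inf x P = x) (hyP : inf y P = y)
    (hxy : ∀ a, compat (inf x (f {a})) (inf y (f {a}))) : compat x y := by
  have hox := h.restrict hx
  have hoy := h.restrict hy
  have key : ∀ a b, compat (inf x (f {a})) (inf y (f {b})) := by
    intro a b
    by_cases hab : a = b
    · subst hab; exact hxy a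
    · have c1 : compat (inf x (f {a})) (f {a}) :=
        compat_inf _ _ _ (hx _) (hx _) (h.pw _ _)
      have c2 : compat (inf y (f {b})) (f {a}) :=
        compat_inf _ _ _ (hy _) (hy _) (h.pw _ _)
      refine CPBA.excl _ _ (f {a}) c1 c2 ?_ ?_
      · rw [CPBA.inf_assoc _ _ _ (hx _) (hx _) (h.pw _ _), CPBA.inf_self]
      · -- f {b} ≤ compl (f {a})
        have h3 : inf (f {b}) (f {a}) = zero := by
          rw [← h.inter, Set.singleton_inter_eq_empty.2, h.empty]
          simpa using fun h => hab h.symm
        rw [CPBA.inf_assoc _ _ _ (hy _) (compat_compl _ _ (hy _)) (compat_compl _ _ (h.pw _ _))]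
        congr 1
        obtain ⟨M, hb, ha⟩ := exists_ctx2 (h.pw {b} {a})
        let a' : M.El := ⟨f {a}, ha⟩
        let b' : M.El := ⟨f {b}, hb⟩
        have h4 : b' ⊓ a' = ⊥ := Subtype.ext h3
        have h5 : b' ⊓ a'ᶜ = b' := by
          rw [inf_eq_left]; exact le_compl_iff_disjoint_right.2 (disjoint_iff.2 h4)
        exact congrArg Subtype.val h5
  have h1 : ∀ a, compat (inf x (f {a})) y := by
    intro a
    have := hoy.compat_of_single (b := inf x (f {a})) (fun b => key a b) Set.univ
    rwa [h.univ, hyP] at this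
  have h2 := hox.compat_of_single (b := y) (fun a => compat_symm _ _ (h1 a)) Set.univ
  rw [h.univ, hxP] at h2
  exact compat_symm _ _ h2

end IsObs

end Vale.Agent.P196.E3
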