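import Vale.Agent.P196.E3.Obs
import Vale.Agent.P196.Tile.Basic

/-!
Quantum Wang tilings by the 104 tiles: one desubstitution step.
-/

namespace Vale.Agent.P196.E3

open CPBA Vale.Agent.P196.Wang

variable {B : Type*} [CPBA B]

/-- parity of a site -/
def par (v : ℤ × ℤ) : Bool × Bool := (decide (v.1 % 2 = 1), decide (v.2 % 2 = 1))

/-- A quantum Wang tiling with unit `P` whose labels are the parities of the sites. -/
structure IsD (P : B) (T : ℤ × ℤ → Set Tile → B) : Prop where
  obs : ∀ v, IsObs P (T v)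
  he : ∀ x y (C : Set Col), T (x, y) {τ | τ.e ∈ C} = T (x + 1, y) {τ | τ.w ∈ C}
  hn : ∀ x y (C : Set Col), T (x, y) {τ | τ.n ∈ C} = T (x, y + 1) {τ | τ.s ∈ C}
  lab : ∀ v, T v {τ | τ.lab = par v} = P

/-- componentwise xor -/
def xr (a b : Bool × Bool) : Bool × Bool := (xor a.1 b.1, xor a.2 b.2)

theorem par_00 (x y : ℤ) : par (2 * x, 2 * y) = (false, false) := by
  unfold par; congr 1 <;> (rw [decide_eq_false_iff_not]; dsimp only; omega)
theorem par_10 (x y : ℤ) : par (2 * x + 1, 2 * y) = (true, false) := by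
  unfold par; congr 1
  · rw [decide_eq_true_iff]; dsimp only; omega
  · rw [decide_eq_false_iff_not]; dsimp only; omega
theorem par_01 (x y : ℤ) : par (2 * x, 2 * y + 1) = (false, true) := by
  unfold par; congr 1
  · rw [decide_eq_false_iff_not]; dsimp only; omega
  · rw [decide_eq_true_iff]; dsimp only; omega
theorem par_11 (x y : ℤ) : par (2 * x + 1, 2 * y + 1) = (true, true) := by
  unfold par; congr 1 <;> (rw [decide_eq_true_iff]; dsimp only; omega)

theorem par_succ_fst (x y : ℤ) : par (x + 1, y) = (!(par (x, y)).1, (par (x, y)).2) := by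
  unfold par
  have h1 : decide ((x + 1) % 2 = 1) = !decide (x % 2 = 1) := by
    rw [← decide_not, decide_eq_decide]; omega
  simp [h1]

theorem par_succ_snd (x y : ℤ) : par (x, y + 1) = ((par (x, y)).1, !(par (x, y)).2) := by
  unfold par
  have h1 : decide ((y + 1) % 2 = 1) = !decide (y % 2 = 1) := by
    rw [← decide_not, decide_eq_decide]; omega
  simp [h1]

/-- shift -/
def sh (b : Bool) : ℤ := if b then 1 else 0

theorem par_sh (k : Bool × Bool) (x y : ℤ) :
    par (x + sh k.1, y + sh k.2) = xr k (par (x, y)) := by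
  obtain ⟨p, q⟩ := k
  cases p <;> cases q <;> simp [sh, xr, par_succ_fst, par_succ_snd]

/-- the tile with a given label and bare tile -/
def relabel : Bool × Bool → Bare → Tile
  | (true, true), .cross k => .cc k
  | (true, false), .harm c x o => .hh c x o
  | (false, true), .varm c y o => .vv c y o
  | _, b => .ee b

theorem relabel_bare : ∀ (l : Bool × Bool) (b : Bare), (relabel l b).bare = b := by
  decide

theorem relabel_e (l : Bool × Bool) (b : Bare) : (relabel l b).e = b.east := by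
  unfold Tile.e; rw [relabel_bare]
theorem relabel_w (l : Bool × Bool) (b : Bare) : (relabel l b).w = b.west := by
  unfold Tile.w; rw [relabel_bare]
theorem relabel_n (l : Bool × Bool) (b : Bare) : (relabel l b).n = b.north := by
  unfold Tile.n; rw [relabel_bare]
theorem relabel_s (l : Bool × Bool) (b : Bare) : (relabel l b).s = b.south := by
  unfold Tile.s; rw [relabel_bare]

/-! finite facts -/

theorem fact_cc_e : ∀ (k : Bool × Bool) (τ : Tile), τ.lab = (true, true) →
    (τ = .cc k ↔ τ.e = (k, true)) := by decide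
theorem fact_cc_n : ∀ (k : Bool × Bool) (τ : Tile), τ.lab = (true, true) →
    (τ = .cc k ↔ τ.n = (k, true)) := by decide
theorem fact_cc_w : ∀ (k : Bool × Bool) (τ : Tile), τ.lab = (true, true) →
    (τ.w = (k, false) ↔ τ = .cc k) := by decide
theorem fact_cc_s : ∀ (k : Bool × Bool) (τ : Tile), τ.lab = (true, true) →
    (τ.s = (k, false) ↔ τ = .cc k) := by decide
theorem fact_01 : ∀ (k : Bool × Bool) (τ : Tile), τ.lab = (false, true) →
    (τ.w = (k, true) ↔ τ.e = ((!k.1, k.2), false)) := by decide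
theorem fact_10 : ∀ (k : Bool × Bool) (τ : Tile), τ.lab = (true, false) →
    (τ.s = (k, true) ↔ τ.n = ((k.1, !k.2), false)) := by decide

namespace IsD

variable {P : B} {T : ℤ × ℤ → Set Tile → B}

/-- congruence on the tiles with the right label -/
theorem congr (h : IsD P T) (v : ℤ × ℤ) {s t : Set Tile}
    (hst : ∀ τ : Tile, τ.lab = par v → (τ ∈ s ↔ τ ∈ t)) : T v s = T v t :=
  (h.obs v).congr (h.lab v) hst

theorem cc_h (h : IsD P T) (x y : ℤ) (k : Bool × Bool) :
    T (2 * x + 1, 2 * y + 1) {.cc k} = T (2 * (x + 1) + 1, 2 * y + 1) {.cc (!k.1, k.2)} := by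
  have h1 : T (2 * x + 1, 2 * y + 1) {.cc k} =
      T (2 * x + 1, 2 * y + 1) {τ | τ.e ∈ ({(k, true)} : Set Col)} := by
    apply h.congr
    rw [par_11]
    exact fact_cc_e k
  have h2 : T (2 * x + 1 + 1, 2 * y + 1) {τ | τ.w ∈ ({(k, true)} : Set Col)} =
      T (2 * x + 1 + 1, 2 * y + 1) {τ | τ.e ∈ ({((!k.1, k.2), false)} : Set Col)} := by
    apply h.congr
    rw [show (2 * x + 1 + 1 : ℤ) = 2 * (x + 1) by ring, par_01]
    exact fact_01 k
  have h3 : T (2 * x + 1 + 1 + 1, 2 * y + 1) {τ | τ.w ∈ ({((!k.1, k.2), false)} : Set Col)} =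
      T (2 * x + 1 + 1 + 1, 2 * y + 1) {.cc (!k.1, k.2)} := by
    apply h.congr
    rw [show (2 * x + 1 + 1 + 1 : ℤ) = 2 * (x + 1) + 1 by ring, par_11]
    exact fact_cc_w _
  rw [h1, h.he, h2, h.he, h3]
  congr 2; ring

theorem cc_v (h : IsD P T) (x y : ℤ) (k : Bool × Bool) :
    T (2 * x + 1, 2 * y + 1) {.cc k} = T (2 * x + 1, 2 * (y + 1) + 1) {.cc (k.1, !k.2)} := by
  have h1 : T (2 * x + 1, 2 * y + 1) {.cc k} =
      T (2 * x + 1, 2 * y + 1) {τ | τ.n ∈ ({(k, true)} : Set Col)} := by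
    apply h.congr
    rw [par_11]
    exact fact_cc_n k
  have h2 : T (2 * x + 1, 2 * y + 1 + 1) {τ | τ.s ∈ ({(k, true)} : Set Col)} =
      T (2 * x + 1, 2 * y + 1 + 1) {τ | τ.n ∈ ({((k.1, !k.2), false)} : Set Col)} := by
    apply h.congr
    rw [show (2 * y + 1 + 1 : ℤ) = 2 * (y + 1) by ring, par_10]
    exact fact_10 k
  have h3 : T (2 * x + 1, 2 * y + 1 + 1 + 1) {τ | τ.s ∈ ({((k.1, !k.2), false)} : Set Col)} =
      T (2 * x + 1, 2 * y + 1 + 1 + 1) {.cc (k.1, !k.2)} := by
    apply h.congr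
    rw [show (2 * y + 1 + 1 + 1 : ℤ) = 2 * (y + 1) + 1 by ring, par_11]
    exact fact_cc_s _
  rw [h1, h.hn, h2, h.hn, h3]
  congr 2; ring

theorem cc_h' (h : IsD P T) (x y : ℤ) (k : Bool × Bool) :
    T (2 * x + 1, 2 * y + 1) {.cc (xr k (par (x, y)))} =
      T (2 * (x + 1) + 1, 2 * y + 1) {.cc (xr k (par (x + 1, y)))} := by
  rw [h.cc_h, par_succ_fst]
  obtain ⟨p, q⟩ := k
  simp [xr]

theorem cc_v' (h : IsD P T) (x y : ℤ) (k : Bool × Bool) :
    T (2 * x + 1, 2 * y + 1) {.cc (xr k (par (x, y)))} =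
      T (2 * x + 1, 2 * (y + 1) + 1) {.cc (xr k (par (x, y + 1)))} := by
  rw [h.cc_v, par_succ_snd]
  obtain ⟨p, q⟩ := k
  simp [xr]

/-- the class modulo four is a global event -/
theorem cc_all (h : IsD P T) (k : Bool × Bool) (x y : ℤ) :
    T (2 * x + 1, 2 * y + 1) {.cc (xr k (par (x, y)))} = T (1, 1) {.cc k} := by
  have h0 : T (2 * 0 + 1, 2 * 0 + 1) {.cc (xr k (par (0, 0)))} = T (1, 1) {.cc k} := by
    have : xr k (par (0, 0)) = k := by
      obtain ⟨p, q⟩ := k
      simp [xr, par]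
    rw [this]; rfl
  have hx : ∀ x : ℤ, T (2 * x + 1, 2 * 0 + 1) {.cc (xr k (par (x, 0)))} = T (1, 1) {.cc k} := by
    intro x
    induction x using Int.induction_on with
    | zero => exact h0
    | succ i hi => rw [← h.cc_h', hi]
    | pred i hi =>
      rw [h.cc_h', show (-(i : ℤ) - 1 + 1) = -(i : ℤ) by ring, hi]
  induction y using Int.induction_on with
  | zero => exact hx x
  | succ i hi => rw [← h.cc_v', hi]
  | pred i hi => rw [h.cc_v', show (-(i : ℤ) - 1 + 1) = -(i : ℤ) by ring, hi]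

/-- the class event -/
theorem n_10 (h : IsD P T) (k : Bool × Bool) (x y : ℤ) :
    T (2 * x + 1, 2 * y) {τ | τ.n ∈ ({(xr k (par (x, y)), false)} : Set Col)} =
      T (1, 1) {.cc k} := by
  rw [h.hn, ← h.cc_all k x y]
  apply h.congr
  rw [par_11]
  exact fact_cc_s _

theorem e_01 (h : IsD P T) (k : Bool × Bool) (x y : ℤ) :
    T (2 * x, 2 * y + 1) {τ | τ.e ∈ ({(xr k (par (x, y)), false)} : Set Col)} =
      T (1, 1) {.cc k} := by
  rw [h.he, ← h.cc_all k x y]
  apply h.congr
  rw [par_11]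
  exact fact_cc_w _

theorem compat_cc (h : IsD P T) (k : Bool × Bool) (v : ℤ × ℤ) (S : Set Tile) :
    compat (T (1, 1) {.cc k}) (T v S) := by
  obtain ⟨a, b⟩ := v
  have c11 : ∀ x y : ℤ, ∀ S, compat (T (1, 1) {.cc k}) (T (2 * x + 1, 2 * y + 1) S) := by
    intro x y S
    rw [← h.cc_all k x y]; exact (h.obs _).pw _ _
  have c10 : ∀ x y : ℤ, ∀ S, compat (T (1, 1) {.cc k}) (T (2 * x + 1, 2 * y) S) := by
    intro x y S
    rw [← h.n_10 k x y]; exact (h.obs _).pw _ _
  have c01 : ∀ x y : ℤ, ∀ S, compat (T (1, 1) {.cc k}) (T (2 * x, 2 * y + 1) S) := by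
    intro x y S
    rw [← h.e_01 k x y]; exact (h.obs _).pw _ _
  have c00 : ∀ x y : ℤ, ∀ S, compat (T (1, 1) {.cc k}) (T (2 * x, 2 * y) S) := by
    intro x y
    apply (h.obs _).compat_of_single
    intro τ
    have he : ∀ C : Set Col, compat (T (1, 1) {.cc k}) (T (2 * x, 2 * y) {τ | τ.e ∈ C}) := by
      intro C; rw [h.he]; exact c10 x y _
    have hn : ∀ C : Set Col, compat (T (1, 1) {.cc k}) (T (2 * x, 2 * y) {τ | τ.n ∈ C}) := by
      intro C; rw [h.hn]; exact c01 x y _
    have hw : ∀ C : Set Col, compat (T (1, 1) {.cc k}) (T (2 * x, 2 * y) {τ | τ.w ∈ C}) := by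
      intro C
      have := h.he (2 * x - 1) (2 * y) C
      rw [show (2 * x - 1 + 1 : ℤ) = 2 * x by ring] at this
      rw [← this, show (2 * x - 1 : ℤ) = 2 * (x - 1) + 1 by ring]
      exact c10 (x - 1) y _
    have hs : ∀ C : Set Col, compat (T (1, 1) {.cc k}) (T (2 * x, 2 * y) {τ | τ.s ∈ C}) := by
      intro C
      have := h.hn (2 * x) (2 * y - 1) C
      rw [show (2 * y - 1 + 1 : ℤ) = 2 * y by ring] at this
      rw [← this, show (2 * y - 1 : ℤ) = 2 * (y - 1) + 1 by ring]
      exact c01 x (y - 1) _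
    by_cases hl : τ.lab = par (2 * x, 2 * y)
    · have key : T (2 * x, 2 * y) {τ} = T (2 * x, 2 * y)
          (({σ | σ.e ∈ ({τ.e} : Set Col)} ∩ {σ | σ.w ∈ ({τ.w} : Set Col)}) ∩
          ({σ | σ.n ∈ ({τ.n} : Set Col)} ∩ {σ | σ.s ∈ ({τ.s} : Set Col)})) := by
        apply h.congr
        intro σ hσ
        simp only [Set.mem_inter_iff, Set.mem_singleton_iff, Set.mem_ofPred_eq]
        constructor
        · rintro rfl; simp
        · rintro ⟨⟨h1, h2⟩, h3, h4⟩
          exact ext_colour _ _ (hσ.trans hl.symm) h1 h2 h3 h4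
      rw [key, (h.obs _).inter, (h.obs _).inter, (h.obs _).inter]
      have hp := (h.obs (2 * x, 2 * y)).pw
      apply compat_inf_right
      · exact compat_inf_right (he _) (hw _) (hp _ _)
      · exact compat_inf_right (hn _) (hs _) (hp _ _)
      · rw [← (h.obs _).inter, ← (h.obs _).inter]; exact hp _ _
    · have key : T (2 * x, 2 * y) {τ} = T (2 * x, 2 * y) ∅ := by
        apply h.congr
        intro σ hσ
        simp only [Set.mem_singleton_iff, Set.mem_empty_iff_false, iff_false]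
        rintro rfl; exact hl hσ
      rw [key, (h.obs _).empty]
      exact compat_symm _ _ (compat_zero _)
  obtain ⟨x, rfl | rfl⟩ := Int.even_or_odd' a <;> obtain ⟨y, rfl | rfl⟩ := Int.even_or_odd' b
  · exact c00 x y S
  · exact c01 x y S
  · exact c10 x y S
  · exact c11 x y S

end IsD

end Vale.Agent.P196.E3
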